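import Vale.Agent.P300LA.Fld
import Vale.Agent.P300LT.Defs
import Vale.Agent.P300LG.Defs

/-!
# P300LA: the types of the lines, labelled arrangements
-/

open scoped ComplexConjugate
open NumberField Module
open Vale.Agent.P288.BQ Vale.Agent.P288.X11 P300LT
open Vale.Agent.P300LX Vale.Agent.P300LG

namespace P300LA

noncomputable section

variable {L : Type} [Field L] [NumberField L] [IsCMField L]

/-- The pencil parameter: `l2 = α l1 + β l4`. -/
structure Pen (F : Fld L) where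
  α : 𝓞 L
  β : 𝓞 L
  a : ℝ
  b : ℝ
  φα : F.S.φ₀ (α : L) = a
  φβ : F.S.φ₀ (β : L) = b
  apos : 0 < a
  bpos : 0 < b
  lo : 2 * b ≤ a
  hi : a ≤ 6 * b

variable {F : Fld L}

/-- the second coordinate of the line `l2` -/
def Pen.y2 (P : Pen F) : ℝ := (16 * P.a - 75 * P.b) / (20 * P.a + 100 * P.b)

/-- the vectors of the real lines `l1 l2 l3 l4 m1 m2 m3` -/
def Pen.re (P : Pen F) : Fin 7 → Fin 3 → L :=
  ![![10 * F.ρ, 17, 16],
    ![(10 * P.α + 50 * P.β) * F.ρ, 17 * P.α + 85 * P.β, 16 * P.α - 75 * P.β],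
    ![60 * F.ρ, 102, -59], ![50 * F.ρ, 85, -75],
    ![10 * F.ρ, -2, -21], ![10 * F.ρ, -20, -5], ![10 * F.ρ, -12, 18]]

/-- the matrix of the reflection in the mirror -/
def Fld.rm (F : Fld L) : Matrix (Fin 3) (Fin 3) L :=
  !![1, 0, 0; 0, 0, (F.ι : L); 0, -(F.ι : L), 0]

/-- the vectors of the types -/
def Pen.J (P : Pen F) : Jx → Fin 3 → L
  | none => ![0, 1, (F.ι : L)]
  | some (false, k) => P.re k
  | some (true, k) => F.rm.mulVec (P.re k)

/-- The lines of `A` are orthogonal to vectors congruent to the types modulo `N`; all such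
vectors occur, except for the mirror type. -/
structure Lab (P : Pen F) (N : ℕ) {D : Dat} (A : Arr D) where
  x : A.ι ⊕ A.κ → Fin 3 → L
  ty : A.ι ⊕ A.κ → Jx
  eps : A.ε = √2
  ty_d : ∀ l, ty l = none ↔ ∃ α, l = .inr α
  mem : ∀ l, x l ∈ Om F.S N (P.J (ty l))
  inj : ∀ l l', ty l = ty l' → x l = x l' → l = l'
  ev_eq : ∀ l z, ev (A.fm l) z = ell F.S.h (cv F.S (x l)) z
  surj : ∀ j, ∀ v ∈ Om F.S N (P.J (some j)), ∃ l, ty l = some j ∧ x l = v
  dd : ∃ l, ty l = none ∧ x l = P.J none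

/-- the sparsity block -/
def SPA : Prop := ∀ (L : Type) [Field L] [NumberField L] [IsCMField L] (F : Fld L) (P : Pen F)
  (ρ : ℝ), Par (√2) P.y2 ρ → ∃ N₀ : ℕ, ∀ N : ℕ, N₀ ≤ N → ∀ (D : Dat) (A : Arr D),
    Lab P N A → Nonempty (Clu A P.y2 ρ)

/-- the harmonic pencil -/
def penOne (F : Fld L) : Pen F where
  α := 2
  β := 1
  a := 2
  b := 1
  φα := by simp [map_ofNat]
  φβ := by simp
  apos := by norm_num
  bpos := by norm_num
  lo := by norm_num
  hi := by norm_num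

theorem sqrt_two_bounds : 1414 / 1000 < √2 ∧ √2 < (1415 / 1000 : ℝ) :=
  ⟨Real.lt_sqrt_of_sq_lt (by norm_num), (Real.sqrt_lt' (by norm_num)).2 (by norm_num)⟩

/-- the pencil with cross ratio `3 - 2 √2` -/
def penTwo (F : Fld L) : Pen F where
  α := 1
  β := 3 - 2 * F.ρ
  a := 1
  b := 3 - 2 * √2
  φα := by simp
  φβ := by simp [map_ofNat, F.φρ]
  apos := by norm_num
  bpos := by linarith [sqrt_two_bounds.2]
  lo := by linarith [sqrt_two_bounds.1]
  hi := by linarith [sqrt_two_bounds.2]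

theorem Pen.par (P : Pen F) : Par (√2) P.y2 (139 / 100) := by
  have h1 := P.apos
  have h2 := P.bpos
  have h3 := P.lo
  have h4 := P.hi
  refine ⟨sqrt_two_bounds.1, sqrt_two_bounds.2, ?_, ?_, le_rfl, by linarith [sqrt_two_bounds.1]⟩
  · rw [Pen.y2, le_div_iff₀ (by positivity)]
    linarith
  · rw [Pen.y2, div_le_iff₀ (by positivity)]
    linarith

theorem Fld.h_eq (F : Fld L) : F.S.h = ![-√2, 1, 1] := by
  funext k
  fin_cases k
  · show (F.S.φ₀ (F.S.c 0)).re = -√2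
    rw [F.c0, map_neg, F.φρ]
    simp
  · show (F.S.φ₀ (F.S.c 1)).re = 1
    rw [F.c1]
    simp
  · show (F.S.φ₀ (F.S.c 2)).re = 1
    rw [F.c2]
    simp

end

end P300LA
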