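import Vale.Agent.P300LA.Bld
import Vale.Agent.P300L.Su

/-!
# P300LA: the block BUILD
-/

open Vale.Agent.P288.BQ Vale.Agent.P288.X11 P300LT
open Vale.Agent.P300LX Vale.Agent.P300LG Vale.Agent.P300LV

namespace P300LA

theorem build : Vale.Agent.P300L.BUILD := by
  intro ev L _ _ _ F P N₀
  obtain ⟨N₁, h₁⟩ := exists_lev P
  have H := h₁ (3 * (max N₀ N₁ + 1)) (by omega)
  obtain ⟨Q⟩ := exists_sj ev P (N := 3 * (max N₀ N₁ + 1)) (by omega) (dvd_mul_right _ _)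
  refine ⟨_, by omega, (Q.lns H).dat, (Q.lns H).arr, Q.Γ, inferInstance, (Q.mat H).toAct,
    ⟨Q.lab H⟩, fun g α y hy => ⟨Q.mv g.2 α, ?_, ?_⟩,
    ⟨(Q.mat H).m, (Q.mat H).uni, (Q.mat H).mul, fun _ _ _ => rfl⟩⟩
  · exact (F.ev_af _ _).trans (Sj.ell_mv (Q.mem_U g.2) ((F.mem_B _).2 (Dat.π_mem y))
      ((F.ev_af _ _).symm.trans hy.1))
  · exact (congrArg (Q.j g.1 (Dat.π y) * ·) hy.2).trans
      (Q.sd_mv g.2 α ((F.mem_B _).2 (Dat.π_mem y)) ((F.ev_af _ _).symm.trans hy.1)).symm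

end P300LA
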