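import Vale.Agent.P300LA.Mod

/-!
# P300LA: clusters
-/

open scoped ComplexConjugate
open NumberField Module
open Vale.Agent.P288.BQ Vale.Agent.P288.X11 P300LT
open Vale.Agent.P300LX Vale.Agent.P300LG
open Vale.Agent.P272.K (Cm)

namespace P300LA

noncomputable section

variable {L : Type} [Field L] [NumberField L] [IsCMField L] {F : Fld L} (P : Pen F)

theorem comb {p : ℕ} (S : Setup L p) {N : ℕ} {g : GL (Fin (p + 1)) L} (hg : g ∈ S.U)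
    {j j' x x' : Fin (p + 1) → L} (hx : x ∈ Om S N j) (hx' : x' ∈ Om S N j')
    (e : g.1.mulVec x = j) (e' : g.1.mulVec x' = j') (a b : 𝓞 L) :
    ∃ v ∈ Om S N ((a : L) • j + (b : L) • j'), g.1.mulVec v = (a : L) • j + (b : L) • j' := by
  have h : g.1.mulVec ((a : L) • x + (b : L) • x') = (a : L) • j + (b : L) • j' := by
    rw [Matrix.mulVec_add, Matrix.mulVec_smul, Matrix.mulVec_smul, e, e']
  refine ⟨_, ⟨?_, by rw [← h, hL_mulVec S hg]⟩, h⟩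
  obtain ⟨y, hy, rfl⟩ := cg_iff.1 hx.1
  obtain ⟨y', hy', rfl⟩ := cg_iff.1 hx'.1
  refine cg_iff.2 ⟨_, Intg.add (Intg.smul a hy) (Intg.smul b hy'), ?_⟩
  module

/-- the type `j` occurs in the copy of the model given by `g` -/
def Occ (N : ℕ) (g : GL (Fin 3) L) (j : Jx) : Prop :=
  ∃ v ∈ Om F.S N (P.J j), g.1.mulVec v = P.J j

theorem Occ.comb {N : ℕ} {g : GL (Fin 3) L} (hg : g ∈ F.S.U) {i j k : Jx} (hi : Occ P N g i)
    (hj : Occ P N g j) (a b : 𝓞 L) (e : P.J k = (a : L) • P.J i + (b : L) • P.J j) :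
    Occ P N g k := by
  obtain ⟨x, hx, ex⟩ := hi
  obtain ⟨y, hy, ey⟩ := hj
  rw [Occ, e]
  exact P300LA.comb F.S hg hx hy ex ey a b

theorem occ_clo {N : ℕ} {g : GL (Fin 3) L} (hg : g ∈ F.S.U) {s : Bool} {i j : Fin 7} (e : i ≠ j)
    (hi : i ∈ ({0, 2, 3} : Set (Fin 7))) (hj : j ∈ ({0, 2, 3} : Set (Fin 7)))
    (h : Occ P N g (some (s, i))) (h' : Occ P N g (some (s, j))) {k : Fin 7} (hk : k < 4) :
    Occ P N g (some (s, k)) := by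
  have a3 : Occ P N g (some (s, 0)) → Occ P N g (some (s, 2)) → Occ P N g (some (s, 3)) :=
    fun u v => Occ.comb P hg u v (-1) 1 (by rw [P.J_two]; simp)
  have a0 : Occ P N g (some (s, 3)) → Occ P N g (some (s, 2)) → Occ P N g (some (s, 0)) :=
    fun u v => Occ.comb P hg u v (-1) 1 (by rw [P.J_two]; simp)
  have key : Occ P N g (some (s, 0)) ∧ Occ P N g (some (s, 3)) := by
    simp only [Set.mem_insert_iff, Set.mem_singleton_iff] at hi hj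
    rcases hi with rfl | rfl | rfl <;> rcases hj with rfl | rfl | rfl
    exacts [absurd rfl e, ⟨h, a3 h h'⟩, ⟨h, h'⟩, ⟨h', a3 h' h⟩, absurd rfl e, ⟨a0 h' h, h'⟩,
      ⟨h', h⟩, ⟨a0 h h', h⟩, absurd rfl e]
  fin_cases k
  · exact key.1
  · exact Occ.comb P hg key.1 key.2 P.α P.β (P.J_one s)
  · exact Occ.comb P hg key.1 key.2 1 1 (by simpa using P.J_two s)
  · exact key.2
  all_goals exact absurd hk (by decide)

theorem Fld.act_mem (F : Fld L) {g : GL (Fin 3) L} (hg : g ∈ F.S.U) {z : Cm 2} (hz : z ∈ F.S.B) :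
    act (F.S.mat g) z ∈ F.S.B :=
  Vale.Agent.P288.BQ.act_mem F.S.h0_neg F.S.hk_pos (F.S.mat_unitary hg) hz

theorem Fld.act_mul (F : Fld L) {g g' : GL (Fin 3) L} (hg : g ∈ F.S.U) (hg' : g' ∈ F.S.U)
    {z : Cm 2} (hz : z ∈ F.S.B) :
    act (F.S.mat (g * g')) z = act (F.S.mat g) (act (F.S.mat g') z) := by
  rw [F.S.mat_mul]
  exact Vale.Agent.P288.BQ.act_mul F.S.h0_neg F.S.hk_pos (F.S.mat_unitary hg)
    (F.S.mat_unitary hg') hz

theorem act_one' (z : Cm 2) : act (1 : Matrix (Fin 3) (Fin 3) ℂ) z = z := by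
  funext k
  simp [act, aut]

theorem Fld.act_inv (F : Fld L) {g : GL (Fin 3) L} (hg : g ∈ F.S.U) {z : Cm 2} (hz : z ∈ F.S.B) :
    act (F.S.mat g) (act (F.S.mat g⁻¹) z) = z := by
  rw [← F.act_mul hg (F.S.U.inv_mem hg) hz, mul_inv_cancel, F.S.mat_one, act_one']

theorem Fld.inv_act (F : Fld L) {g : GL (Fin 3) L} (hg : g ∈ F.S.U) {z : Cm 2} (hz : z ∈ F.S.B) :
    act (F.S.mat g⁻¹) (act (F.S.mat g) z) = z := by
  rw [← F.act_mul (F.S.U.inv_mem hg) hg hz, inv_mul_cancel, F.S.mat_one, act_one']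

theorem Fld.aut_ne (F : Fld L) {g : GL (Fin 3) L} (hg : g ∈ F.S.U) {z : Cm 2} (hz : z ∈ F.S.B) :
    aut (F.S.mat g) z ≠ 0 :=
  aut_ne_zero F.S.h0_neg F.S.hk_pos (F.S.mat_unitary hg) hz

theorem Fld.ell_g (F : Fld L) {g : GL (Fin 3) L} (hg : g ∈ F.S.U) {z : Cm 2} (hz : z ∈ F.S.B)
    (x : Fin 3 → L) : ell F.S.h (cv F.S x) z =
      aut (F.S.mat g) z * ell F.S.h (cv F.S (g.1.mulVec x)) (act (F.S.mat g) z) := by
  rw [cv_mulVec]
  exact ell_act F.S.h0_neg F.S.hk_pos (F.S.mat_unitary hg) hz _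

theorem Pen.ell_iff {g : GL (Fin 3) L} (hg : g ∈ F.S.U) {z : Cm 2} (hz : z ∈ F.S.B)
    {x : Fin 3 → L} {j : Jx} (e : g.1.mulVec x = P.J j) :
    ell F.S.h (cv F.S x) z = 0 ↔ mf P.y2 j (act (F.S.mat g) z) = 0 := by
  rw [F.ell_g hg hz, e, mul_eq_zero, or_iff_right (F.aut_ne hg hz), P.ell_J_iff]

theorem Fld.dl_le (F : Fld L) {ρ : ℝ} (hρ : ρ < √2) {X : Cm 2} (hX : nq X ≤ ρ) :
    dl F.S.h X 0 ≤ √2 / (√2 - ρ) := by
  have hs : (0 : ℝ) < √2 := by positivity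
  have e : ‖ell F.S.h (vec X) 0‖ = √2 := by
    rw [F.ell_eq]
    simp
  have e0 : nq (0 : Cm 2) = 0 := by simp [nq]
  rw [dl, nr, e, F.Dn_eq, F.Dn_eq, e0, zero_sub, neg_neg, neg_sub, sq, mul_div_assoc,
    div_self hs.ne', mul_one]
  exact div_le_div_of_nonneg_left hs.le (by linarith) (by linarith)

/-- two points of one cluster ball are near -/
theorem Fld.dl_KK (F : Fld L) {ρ : ℝ} (hρ : ρ < √2) {g : GL (Fin 3) L} (hg : g ∈ F.S.U)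
    {z w : Cm 2} (hz : z ∈ F.S.B) (hw : w ∈ F.S.B) (h1 : nq (act (F.S.mat g) z) ≤ ρ)
    (h2 : nq (act (F.S.mat g) w) ≤ ρ) : dl F.S.h z w ≤ (2 * (√2 / (√2 - ρ))) ^ 2 := by
  rw [← dl_act F.S.h0_neg F.S.hk_pos (F.S.mat_unitary hg) hz hw]
  exact dl_tri F.S.hk_pos (F.act_mem hg hz) (F.act_mem hg hw) F.S.zero_mem_B (F.dl_le hρ h1)
    (F.dl_le hρ h2)

/-- `g` maps the labelled vectors whose lines pass near `z` to their types -/
def Good (N : ℕ) (B : ℝ) (z : Cm 2) (g : GL (Fin 3) L) : Prop :=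
  g ∈ F.S.U ∧ ∀ j, ∀ x ∈ Om F.S N (P.J j), ∀ w ∈ F.S.B, dl F.S.h z w ≤ B →
    ell F.S.h (cv F.S x) w = 0 → g.1.mulVec x = P.J j

theorem exists_good (B : ℝ) : ∃ N₀ : ℕ, ∀ N : ℕ, N₀ ≤ N → ∀ z ∈ F.S.B, ∃ g, Good P N B z g := by
  obtain ⟨M, hM⟩ := (Set.finite_range fun j => ‖F.S.φ₀ (hL F.S (P.J j) (P.J j))‖).bddAbove
  obtain ⟨N₀, h⟩ := shadow F.S F.deg F.c_intg P.J_intg ((M / 2 + B) ^ 2)
  refine ⟨N₀, fun N hN z hz => ?_⟩
  obtain ⟨g, hg, h1⟩ := h N hN z hz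
  refine ⟨g, hg, fun j x hx w hw hB e => h1 j x hx (nr_le F.S.hk_pos hz hw _ ?_)⟩
  have a := re_herm_le F.S x
  rw [hx.2] at a
  have b := hM (Set.mem_range_self j)
  rw [nr_zero e]
  linarith

theorem mulVec_inj (g : GL (Fin 3) L) {x y : Fin 3 → L} (e : g.1.mulVec x = g.1.mulVec y) :
    x = y := by
  have := congrArg (g⁻¹.1.mulVec) e
  simpa [Matrix.mulVec_mulVec] using this

theorem Good.uniq {N : ℕ} {B : ℝ} {z : Cm 2} {g : GL (Fin 3) L} (h : Good P N B z g) {j : Jx}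
    {x x' : Fin 3 → L} (hx : x ∈ Om F.S N (P.J j)) (hx' : x' ∈ Om F.S N (P.J j)) {w w' : Cm 2}
    (hw : w ∈ F.S.B) (hw' : w' ∈ F.S.B) (d : dl F.S.h z w ≤ B) (d' : dl F.S.h z w' ≤ B)
    (e : ell F.S.h (cv F.S x) w = 0) (e' : ell F.S.h (cv F.S x') w' = 0) : x = x' :=
  mulVec_inj g ((h.2 j x hx w hw d e).trans (h.2 j x' hx' w' hw' d' e').symm)

theorem spa : SPA := by
  intro L _ _ _ F P ρ hP
  classical
  set b : ℝ := (2 * (√2 / (√2 - ρ))) ^ 2 with hb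
  have hb1 : 1 ≤ b := by
    have h1 := hP.r1
    have h2 := hP.r2
    have : 1 ≤ √2 / (√2 - ρ) := (one_le_div (by linarith)).2 (by linarith)
    nlinarith
  have hbB : b ≤ (2 * b) ^ 2 := by nlinarith
  obtain ⟨N₀, hN₀⟩ := exists_good P ((2 * b) ^ 2)
  refine ⟨N₀, fun N hN D A Λ => ?_⟩
  have hρ : 1385 / 1000 ≤ ρ := by linarith [hP.r1]
  have hOm : ∀ z, z ∈ D.Om ↔ z ∈ F.S.B := by
    intro z
    rw [A.om, Λ.eps, F.mem_B]
    rfl
  have hS : ∀ p : D.S, p.1 ∈ F.S.B := fun p => (hOm _).1 (D.sub p.2)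
  -- vertices go to vertices
  have hv : ∀ z g, Good P N ((2 * b) ^ 2) z g → ∀ p : D.S, dl F.S.h z p ≤ (2 * b) ^ 2 →
      nq (act (F.S.mat g) p) ≤ ρ := by
    intro z g hg p hd
    obtain ⟨-, i, j, hij, h1, h2⟩ := (A.ver p).1 p.2
    rw [Λ.ev_eq] at h1 h2
    have e1 := hg.2 _ _ (Λ.mem _) _ (hS p) hd h1
    have e2 := hg.2 _ _ (Λ.mem _) _ (hS p) hd h2
    have ne : Λ.ty (.inl i) ≠ Λ.ty (.inl j) := by
      intro e
      have := Λ.inj _ _ e (mulVec_inj g (by rw [e1, e2, e]))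
      exact hij (Sum.inl_injective this)
    exact (mf_meet hP ((F.mem_B _).1 (F.act_mem hg.1 (hS p))).le ne
      ((P.ell_iff hg.1 (hS p) e1).1 h1) ((P.ell_iff hg.1 (hS p) e2).1 h2)).trans hρ
  have gap : ∀ p p' : D.S, dl F.S.h p p' ≤ (2 * b) ^ 2 → dl F.S.h p p' ≤ b := by
    intro p p' hd
    obtain ⟨g, hg⟩ := hN₀ N hN p (hS p)
    exact F.dl_KK hP.r2 hg.1 (hS p) (hS p')
      (hv _ g hg p (by rw [dl_self (hS p)]; linarith)) (hv _ g hg p' hd)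
  let R : Setoid D.S :=
    { r := fun p p' => dl F.S.h p p' ≤ b
      iseqv := ⟨fun p => by rw [dl_self (hS p)]; exact hb1,
        fun {p p'} h => by rw [dl_symm]; exact h,
        fun {p p' p''} h h' => gap _ _
          (dl_tri F.S.hk_pos (hS p) (hS p'') (hS p') h (by rw [dl_symm]; exact h'))⟩ }
  have hB0 : ∀ X : Cm 2, nq X ≤ 1385 / 1000 → X ∈ F.S.B := fun X hX =>
    (F.mem_B X).2 (by linarith [hP.r2])
  have hJ : ∀ j, ∃ l, Λ.ty l = j ∧ Λ.x l = P.J j := by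
    rintro (_ | j)
    · exact Λ.dd
    · exact Λ.surj j _ (self_mem_Om F.S N _)
  have hP0 : P0 ∈ D.S := by
    obtain ⟨l, h1, h2⟩ := hJ (some (false, 0))
    obtain ⟨l', h1', h2'⟩ := hJ (some (false, 3))
    have hz : ∀ l k, k < 4 → Λ.x l = P.J (some (false, k)) → ev (A.fm l) P0 = 0 := by
      intro l k hk e
      rw [Λ.ev_eq, e, P.ell_J_iff]
      exact mf_pen (s := false) rfl hk
    have hl : ∀ l j, Λ.ty l = some j → ∃ i, l = .inl i := by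
      rintro (i | α) j e
      · exact ⟨i, rfl⟩
      · rw [(Λ.ty_d _).2 ⟨α, rfl⟩] at e
        exact absurd e (by simp)
    obtain ⟨i, rfl⟩ := hl l _ h1
    obtain ⟨i', rfl⟩ := hl l' _ h1'
    refine (A.ver _).2 ⟨(hOm _).2 (hB0 _ nq_P0), i, i', ?_, hz _ 0 (by decide) h2,
      hz _ 3 (by decide) h2'⟩
    rintro rfl
    rw [h1] at h1'
    exact absurd h1' (by decide)
  have one : Good P N ((2 * b) ^ 2) P0 1 := by
    obtain ⟨g, hg⟩ := hN₀ N hN P0 (hB0 _ nq_P0)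
    refine ⟨F.S.U.one_mem, fun j x hx w hw hd e => ?_⟩
    obtain ⟨X, hX, eX⟩ := foot P.y2 j
    have hd' : dl F.S.h P0 X ≤ b :=
      dl_tri F.S.hk_pos (hB0 _ nq_P0) (hB0 _ hX) F.S.zero_mem_B
        (F.dl_le hP.r2 (nq_P0.trans hρ)) (F.dl_le hP.r2 (hX.trans hρ))
    rw [Units.val_one, Matrix.one_mulVec]
    exact hg.uniq P hx (self_mem_Om F.S N _) hw (hB0 _ hX) hd (hd'.trans hbB) e
      ((P.ell_J_iff j X).2 eX)
  have hc : ∀ c : Quotient R, ∃ (p : D.S) (g : GL (Fin 3) L), Quotient.mk R p = c ∧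
      Good P N ((2 * b) ^ 2) p g ∧ (c = Quotient.mk R ⟨P0, hP0⟩ → g = 1) := by
    intro c
    by_cases e : c = Quotient.mk R ⟨P0, hP0⟩
    · exact ⟨⟨P0, hP0⟩, 1, e.symm, one, fun _ => rfl⟩
    · obtain ⟨p, rfl⟩ := Quotient.exists_rep c
      obtain ⟨g, hg⟩ := hN₀ N hN p (hS p)
      exact ⟨p, g, rfl, hg, fun e' => absurd e' e⟩
  choose pt g hpt hg hg0 using hc
  have hK : ∀ c z, z ∈ KK A.ε ρ (F.S.mat (g c)) → z ∈ F.S.B ∧ dl F.S.h (pt c) z ≤ b := by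
    intro c z hz
    have hzB : z ∈ F.S.B := (F.mem_B z).2 (Λ.eps ▸ hz.1)
    exact ⟨hzB, F.dl_KK hP.r2 (hg c).1 (hS _) hzB
      (hv _ _ (hg c) _ (by rw [dl_self (hS _)]; linarith)) hz.2⟩
  have hM : ∀ c l, A.Meets l (KK A.ε ρ (F.S.mat (g c))) →
      (g c).1.mulVec (Λ.x l) = P.J (Λ.ty l) := by
    rintro c l ⟨z, hz, e⟩
    rw [Λ.ev_eq] at e
    exact (hg c).2 _ _ (Λ.mem l) z (hK c z hz).1 ((hK c z hz).2.trans hbB) e
  have hO : ∀ c l, (g c).1.mulVec (Λ.x l) = P.J (Λ.ty l) →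
      A.Meets l (KK A.ε ρ (F.S.mat (g c))) := by
    intro c l e
    obtain ⟨X, hX, eX⟩ := foot P.y2 (Λ.ty l)
    have hz := F.act_mem (F.S.U.inv_mem (hg c).1) (hB0 X hX)
    have ea := F.act_inv (hg c).1 (hB0 X hX)
    refine ⟨_, ⟨Λ.eps ▸ (F.mem_B _).1 hz, ?_⟩, ?_⟩
    · rw [ea]
      exact hX.trans hρ
    · rw [Λ.ev_eq, P.ell_iff (hg c).1 hz e, ea]
      exact eX
  refine ⟨⟨Quotient R, fun c => F.S.mat (g c), Λ.ty, Quotient.mk R ⟨P0, hP0⟩, ?_, Λ.ty_d, ?_, ?_,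
    ?_, ?_, ?_, ?_, ?_⟩⟩
  · intro c
    rw [Λ.eps, ← F.h_eq]
    exact F.S.mat_unitary (hg c).1
  · intro c l hl
    obtain ⟨k, hk, e⟩ := P.ell_J (Λ.ty l)
    refine ⟨k, hk, fun z hz => ?_⟩
    rw [Λ.ev_eq, F.ell_g (hg c).1 ((hOm z).1 hz), hM c l hl, e]
    ring
  · intro c l l' h h' e
    exact Λ.inj _ _ e (mulVec_inj (g c) (by rw [hM c l h, hM c l' h', e]))
  · rintro c s i j e hi hj ⟨l, h1, h2⟩ ⟨l', h1', h2'⟩ k hk
    obtain ⟨v, hv, ev⟩ := occ_clo P (hg c).1 e hi hj ⟨_, h1 ▸ Λ.mem l, h1 ▸ hM c l h2⟩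
      ⟨_, h1' ▸ Λ.mem l', h1' ▸ hM c l' h2'⟩ hk
    obtain ⟨l'', h3, h4⟩ := Λ.surj _ v hv
    exact ⟨l'', h3, hO c l'' (by rw [h3, h4, ev])⟩
  · intro c c' e
    refine Set.disjoint_left.2 fun z h h' => e ?_
    rw [← hpt c, ← hpt c']
    exact Quotient.sound (gap _ _ (dl_tri F.S.hk_pos (hS _) (hS _) (hK c z h).1 (hK c z h).2
      (hK c' z h').2))
  · intro p hp
    have h1 : dl F.S.h (pt (Quotient.mk R ⟨p, hp⟩)) p ≤ b :=
      Quotient.exact (hpt (Quotient.mk R ⟨p, hp⟩))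
    exact ⟨Quotient.mk R ⟨p, hp⟩, Λ.eps ▸ (F.mem_B _).1 (hS ⟨p, hp⟩),
      hv _ _ (hg _) ⟨p, hp⟩ (h1.trans hbB)⟩
  · rw [hg0 _ rfl, F.S.mat_one]
  · intro j
    obtain ⟨l, h1, h2⟩ := hJ j
    refine ⟨l, h1, hO _ l ?_⟩
    rw [hg0 _ rfl, Units.val_one, Matrix.one_mulVec, h1, h2]

end

end P300LA
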