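import Vale.Agent.P300LA.Clu

/-!
# P300LA: incidence properties of the labelled lines
-/

open scoped ComplexConjugate Topology
open NumberField Module Filter
open Vale.Agent.P288.BQ Vale.Agent.P288.X11 P300LT
open Vale.Agent.P300LX Vale.Agent.P300LG
open Vale.Agent.P272.K (Cm)

namespace P300LA

noncomputable section

variable {L : Type} [Field L] [NumberField L] [IsCMField L] {F : Fld L} (P : Pen F)

/-- the level is large -/
def Lev (N : ℕ) : Prop := ∀ z ∈ F.S.B, ∃ g, Good P N 2 z g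

theorem exists_lev : ∃ N₀ : ℕ, ∀ N : ℕ, N₀ ≤ N → Lev P N := exists_good P 2

theorem Fld.mem_B_of (F : Fld L) {X : Cm 2} (hX : nq X ≤ 1385 / 1000) : X ∈ F.S.B :=
  (F.mem_B X).2 (by linarith [sqrt_two_bounds.1])

theorem Pen.J_ne (j : Jx) : P.J j ≠ 0 := by
  intro e
  have h := fun X => (P.ell_J_iff j X).1 (by rw [e, F.ell_eq]; simp [cv])
  rcases j with _ | ⟨s, k⟩
  · simpa [mf] using h ![1, 0]
  · have := h 0
    cases s <;> simp [mf, lb, sd, rr] at this

theorem Pen.J_norm (j : Jx) : hL F.S (P.J j) (P.J j) ≠ 0 := fun e => P.J_ne j (aniso F.S F.deg e)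

/-- a labelled vector is conjugate to its type -/
theorem Pen.conj_J {N : ℕ} {j : Jx} {x : Fin 3 → L} (hx : x ∈ Om F.S N (P.J j)) :
    ∃ g ∈ F.S.U, g.1.mulVec x = P.J j := by
  obtain ⟨g, hg, h⟩ := witt_fam F.S F.deg ({()} : Finset Unit) (fun _ => x) (fun _ => P.J j)
    fun _ _ _ _ => hx.2
  exact ⟨g, hg, h () (by simp)⟩

/-- the line of a labelled vector meets the ball -/
theorem Pen.ex_zero {N : ℕ} {j : Jx} {x : Fin 3 → L} (hx : x ∈ Om F.S N (P.J j)) :
    ∃ z ∈ F.S.B, ell F.S.h (cv F.S x) z = 0 := by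
  obtain ⟨g, hg, e⟩ := P.conj_J hx
  obtain ⟨X, hX, eX⟩ := foot P.y2 j
  have hz := F.act_mem (F.S.U.inv_mem hg) (F.mem_B_of hX)
  exact ⟨_, hz, by rw [P.ell_iff hg hz e, F.act_inv hg (F.mem_B_of hX)]; exact eX⟩

theorem Pen.x_ne {N : ℕ} {j : Jx} {x : Fin 3 → L} (hx : x ∈ Om F.S N (P.J j)) : x ≠ 0 := by
  rintro rfl
  exact P.J_norm j (hx.2.symm.trans (by simp [hL]))

/-- the affine form of a vector -/
def Fld.af (F : Fld L) (x : Fin 3 → L) : Af :=
  (-(√2 : ℝ) * conj (cv F.S x 0), conj (cv F.S x 1) • ContinuousLinearMap.proj 0 +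
    conj (cv F.S x 2) • ContinuousLinearMap.proj 1)

theorem Fld.ev_af (F : Fld L) (x : Fin 3 → L) (z : Cm 2) :
    ev (F.af x) z = ell F.S.h (cv F.S x) z := by
  rw [F.ell_eq]
  simp [ev, Fld.af]
  ring

theorem Pen.af_ne {N : ℕ} {j : Jx} {x : Fin 3 → L} (hx : x ∈ Om F.S N (P.J j)) :
    (F.af x).2 ≠ 0 := by
  intro e
  obtain ⟨z, -, hz⟩ := P.ex_zero hx
  rw [← F.ev_af, ev, e] at hz
  have h0 : cv F.S x 0 = 0 := by simpa [Fld.af] using hz
  have h1 : cv F.S x 1 = 0 := by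
    simpa [Fld.af] using DFunLike.congr_fun e ![1, 0]
  have h2 : cv F.S x 2 = 0 := by
    simpa [Fld.af] using DFunLike.congr_fun e ![0, 1]
  refine P.x_ne hx (funext fun k => ?_)
  fin_cases k
  exacts [(map_eq_zero _).1 h0, (map_eq_zero _).1 h1, (map_eq_zero _).1 h2]

theorem meet_uniq {ε y2 ρ : ℝ} (hP : Par ε y2 ρ) {X X' : Cm 2} (hX : nq X ≤ ε) (hX' : nq X' ≤ ε)
    {j j' : Jx} (e : j ≠ j') (h : mf y2 j X = 0) (h' : mf y2 j' X = 0) (k : mf y2 j X' = 0)
    (k' : mf y2 j' X' = 0) : X = X' := by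
  obtain ⟨s, i, i', rfl, rfl, a⟩ := meet hP hX e h h'
  obtain ⟨s', m, m', e1, e2, a'⟩ := meet hP hX' e k k'
  simp only [Option.some.injEq, Prod.mk.injEq] at e1 e2
  obtain ⟨rfl, rfl⟩ := e1
  obtain ⟨-, rfl⟩ := e2
  have hp : ∀ c : Fin 5, ¬ (pr c).2 < 4 := by decide
  have hq : ∀ c c' : Fin 5, pr c = pr c' ∨ pr c = (pr c').swap → c = c' := by decide
  have : sd s X = sd s X' := by
    rcases a with ⟨a1, a2, a3⟩ | ⟨c, a1, a2⟩ <;> rcases a' with ⟨b1, b2, b3⟩ | ⟨c', b1, b2⟩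
    · rw [a3, b3]
    · rcases b2 with b2 | b2 <;> exact absurd (by rw [b2]; assumption) (hp c')
    · rcases a2 with a2 | a2 <;> exact absurd (by rw [a2]; assumption) (hp c)
    · rw [a1, b1, hq c c']
      rcases a2 with a2 | a2 <;> rcases b2 with b2 | b2 <;> simp [a2, b2]
  rw [← sd_sd s X, this, sd_sd]

variable {P} {N : ℕ}

theorem Lev.at (h : Lev P N) {z : Cm 2} (hz : z ∈ F.S.B) : ∃ g ∈ F.S.U, ∀ j,
    ∀ x ∈ Om F.S N (P.J j), ell F.S.h (cv F.S x) z = 0 → g.1.mulVec x = P.J j := by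
  obtain ⟨g, hg⟩ := h z hz
  exact ⟨g, hg.1, fun j x hx e => hg.2 j x hx z hz (by rw [dl_self hz]; norm_num) e⟩

/-- two different labelled lines have at most one common point in the ball -/
theorem Lev.two_B (h : Lev P N) {j j' : Jx} {x x' : Fin 3 → L} (hx : x ∈ Om F.S N (P.J j))
    (hx' : x' ∈ Om F.S N (P.J j')) (ne : ¬ (j = j' ∧ x = x')) {z w : Cm 2} (hz : z ∈ F.S.B)
    (hw : w ∈ F.S.B) (h1 : ell F.S.h (cv F.S x) z = 0) (h2 : ell F.S.h (cv F.S x') z = 0)
    (h3 : ell F.S.h (cv F.S x) w = 0) (h4 : ell F.S.h (cv F.S x') w = 0) : z = w := by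
  obtain ⟨g, hg, k⟩ := h.at hz
  have e1 := k j x hx h1
  have e2 := k j' x' hx' h2
  have hj : j ≠ j' := fun e => ne ⟨e, mulVec_inj g (by rw [e1, e2, e])⟩
  have := meet_uniq P.par ((F.mem_B _).1 (F.act_mem hg hz)).le ((F.mem_B _).1 (F.act_mem hg hw)).le
    hj ((P.ell_iff hg hz e1).1 h1) ((P.ell_iff hg hz e2).1 h2) ((P.ell_iff hg hw e1).1 h3)
    ((P.ell_iff hg hw e2).1 h4)
  rw [← F.inv_act hg hz, this, F.inv_act hg hw]

theorem ev_line (a : Af) (z v : Cm 2) (t : ℂ) : ev a (z + t • v) = ev a z + t * a.2 v := by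
  simp [ev, add_assoc]

/-- two different labelled lines have at most one common point -/
theorem Lev.two (h : Lev P N) {j j' : Jx} {x x' : Fin 3 → L} (hx : x ∈ Om F.S N (P.J j))
    (hx' : x' ∈ Om F.S N (P.J j')) (ne : ¬ (j = j' ∧ x = x')) {z w : Cm 2}
    (h1 : ev (F.af x) z = 0) (h2 : ev (F.af x') z = 0) (h3 : ev (F.af x) w = 0)
    (h4 : ev (F.af x') w = 0) : z = w := by
  by_contra hne
  have hv : w - z ≠ 0 := sub_ne_zero.2 (Ne.symm hne)
  have k1 : (F.af x).2 (w - z) = 0 := by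
    have := ev_line (F.af x) z (w - z) 1
    simpa [h1, h3] using this.symm
  have k2 : (F.af x').2 (w - z) = 0 := by
    have := ev_line (F.af x') z (w - z) 1
    simpa [h2, h4] using this.symm
  obtain ⟨u, hu, hu0⟩ := P.ex_zero hx
  rw [← F.ev_af] at hu0
  -- the kernel of the linear part is spanned by `w - z`
  have k3 : (F.af x).2 (u - z) = 0 := by
    have := ev_line (F.af x) z (u - z) 1
    simpa [h1, hu0] using this.symm
  have k4 : ∃ t : ℂ, u - z = t • (w - z) := by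
    have hn := P.af_ne hx
    set l := (F.af x).2
    have hl : ∀ v : Cm 2, l v = v 0 * l ![1, 0] + v 1 * l ![0, 1] := by
      intro v
      rw [← smul_eq_mul, ← smul_eq_mul, ← map_smul, ← map_smul, ← map_add]
      congr 1
      funext k
      fin_cases k <;> simp
    have hd : (u - z) 0 * (w - z) 1 = (u - z) 1 * (w - z) 0 := by
      rw [hl] at k1 k3
      by_cases a : l ![1, 0] = 0
      · have b : l ![0, 1] ≠ 0 := fun b => hn (ContinuousLinearMap.ext fun v => by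
          rw [hl, a, b]; simp)
        refine mul_right_cancel₀ b ?_
        linear_combination (u - z) 0 * k1 - (w - z) 0 * k3
      · refine mul_right_cancel₀ a ?_
        linear_combination (w - z) 1 * k3 - (u - z) 1 * k1
    by_cases a : (w - z) 0 = 0
    · have b : (w - z) 1 ≠ 0 := fun b => hv (funext fun k => by fin_cases k <;> assumption)
      refine ⟨(u - z) 1 / (w - z) 1, funext fun k => ?_⟩
      fin_cases k
      · rw [a, mul_zero] at hd
        simpa [a] using (mul_eq_zero.1 hd).resolve_right b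
      · simp only [Fin.mk_one, Pi.smul_apply, smul_eq_mul]
        rw [div_mul_cancel₀ _ b]
    · refine ⟨(u - z) 0 / (w - z) 0, funext fun k => ?_⟩
      fin_cases k
      · simp only [Fin.zero_eta, Pi.smul_apply, smul_eq_mul]
        rw [div_mul_cancel₀ _ a]
      · simp only [Fin.mk_one, Pi.smul_apply, smul_eq_mul]
        rw [div_mul_eq_mul_div, hd, mul_div_cancel_right₀ _ a]
  obtain ⟨t, ht⟩ := k4
  have hu1 : ev (F.af x') u = 0 := by
    rw [show u = z + t • (w - z) by rw [← ht]; abel, ev_line, h2, k2]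
    simp
  have hop : IsOpen F.S.B := by
    have hc : Continuous fun z : Fin 2 → ℂ => F.S.h 0 + ∑ k : Fin 2, F.S.h k.succ * ‖z k‖ ^ 2 := by
      fun_prop
    exact hc.isOpen_preimage _ isOpen_Iio
  have hc : Continuous fun t : ℂ => u + t • (w - z) := by fun_prop
  have : ∀ᶠ t in 𝓝[≠] (0 : ℂ), u + t • (w - z) ∈ F.S.B :=
    nhdsWithin_le_nhds (hc.continuousAt.eventually_mem (hop.mem_nhds (by simpa using hu)))
  obtain ⟨t, ht1, ht2⟩ := (this.and self_mem_nhdsWithin).exists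
  have e := h.two_B hx hx' ne hu ht1 (by rw [← F.ev_af, hu0]) (by rw [← F.ev_af, hu1])
    (by rw [← F.ev_af, ev_line, hu0, k1]; simp) (by rw [← F.ev_af, ev_line, hu1, k2]; simp)
  have : t • (w - z) = 0 := by simpa using e.symm
  exact hv ((smul_eq_zero.1 this).resolve_left ht2)

/-- lines of the mirror type miss all other lines -/
theorem Lev.dis (h : Lev P N) {j : Jx} {x x' : Fin 3 → L} (hx : x ∈ Om F.S N (P.J none))
    (hx' : x' ∈ Om F.S N (P.J j)) {z : Cm 2} (hz : z ∈ F.S.B)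
    (h1 : ell F.S.h (cv F.S x) z = 0) (h2 : ell F.S.h (cv F.S x') z = 0) : j = none ∧ x' = x := by
  obtain ⟨g, hg, k⟩ := h.at hz
  have e1 := k _ x hx h1
  have e2 := k _ x' hx' h2
  rcases j with _ | j
  · exact ⟨rfl, mulVec_inj g (by rw [e1, e2])⟩
  · exact absurd ((P.ell_iff hg hz e2).1 h2) (mf_none P.par ((F.mem_B _).1 (F.act_mem hg hz)).le
      ((P.ell_iff hg hz e1).1 h1) j)

/-- the branch lines -/
abbrev Io (P : Pen F) (N : ℕ) : Type := (j : Bool × Fin 7) × Om F.S N (P.J (some j))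

theorem four_mem : ∀ (s : Bool) (j : Bool × Fin 7),
    j ∈ ({(s, 0), (s, 1), (s, 2), (s, 3)} : Finset (Bool × Fin 7)) ↔ ∃ c < 4, j = (s, c) := by
  decide

/-- two or four branch lines pass through a vertex -/
theorem Lev.deg (h : Lev P N) {z : Cm 2} (hz : z ∈ F.S.B) {i i' : Io P N} (ne : i ≠ i')
    (h1 : ell F.S.h (cv F.S i.2.1) z = 0) (h2 : ell F.S.h (cv F.S i'.2.1) z = 0) :
    {l : Io P N | ell F.S.h (cv F.S l.2.1) z = 0}.ncard = 2 ∨
      {l : Io P N | ell F.S.h (cv F.S l.2.1) z = 0}.ncard = 4 := by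
  obtain ⟨g, hg, k⟩ := h.at hz
  have hX := ((F.mem_B _).1 (F.act_mem hg hz)).le
  have inj : ∀ l l' : Io P N, ell F.S.h (cv F.S l.2.1) z = 0 → ell F.S.h (cv F.S l'.2.1) z = 0 →
      l.1 = l'.1 → l = l' := by
    rintro ⟨j, x, hx⟩ ⟨j', x', hx'⟩ a b e
    obtain rfl : j = j' := e
    obtain rfl : x = x' := mulVec_inj g ((k _ x hx a).trans (k _ x' hx' b).symm)
    rfl
  have mz : ∀ l : Io P N, ell F.S.h (cv F.S l.2.1) z = 0 →
      mf P.y2 (some l.1) (act (F.S.mat g) z) = 0 :=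
    fun l a => (P.ell_iff hg hz (k _ _ l.2.2 a)).1 a
  by_cases h3 : ∃ l : Io P N, ell F.S.h (cv F.S l.2.1) z = 0 ∧ l ≠ i ∧ l ≠ i'
  · right
    obtain ⟨l, a, b, c⟩ := h3
    have n1 : i.1 ≠ i'.1 := fun e => ne (inj _ _ h1 h2 e)
    have n2 : i.1 ≠ l.1 := fun e => b (inj _ _ h1 a e).symm
    have n3 : i'.1 ≠ l.1 := fun e => c (inj _ _ h2 a e).symm
    obtain ⟨s, hs, hall⟩ := three P.par hX (fun e => n1 (Option.some_injective _ e))
      (fun e => n2 (Option.some_injective _ e)) (fun e => n3 (Option.some_injective _ e))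
      (mz _ h1) (mz _ h2) (mz _ a)
    have oc : ∀ l : Io P N, ell F.S.h (cv F.S l.2.1) z = 0 →
        ∃ c < 4, l.1 = (s, c) ∧ Occ P N g (some (s, c)) := by
      intro l a
      obtain ⟨c, hc, e⟩ := (hall _).1 (mz l a)
      have e' : l.1 = (s, c) := Option.some_injective _ e
      exact ⟨c, hc, e', e' ▸ ⟨_, l.2.2, k _ _ l.2.2 a⟩⟩
    obtain ⟨c1, a1, b1, o1⟩ := oc _ h1
    obtain ⟨c2, a2, b2, o2⟩ := oc _ h2
    obtain ⟨c3, a3, b3, o3⟩ := oc _ a
    have m1 : c1 ≠ c2 := fun e => n1 (by rw [b1, b2, e])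
    have m2 : c1 ≠ c3 := fun e => n2 (by rw [b1, b3, e])
    have m3 : c2 ≠ c3 := fun e => n3 (by rw [b2, b3, e])
    have mem : ∀ c : Fin 7, c < 4 → c ≠ 1 → c ∈ ({0, 2, 3} : Set (Fin 7)) := by
      intro c
      simp only [Set.mem_insert_iff, Set.mem_singleton_iff]
      revert c
      decide
    have all : ∀ c : Fin 7, c < 4 → Occ P N g (some (s, c)) := by
      intro c hc
      by_cases q1 : c1 = 1
      · exact occ_clo P hg m3 (mem _ a2 (q1 ▸ m1.symm)) (mem _ a3 (q1 ▸ m2.symm)) o2 o3 hc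
      by_cases q2 : c2 = 1
      · exact occ_clo P hg m2 (mem _ a1 q1) (mem _ a3 (q2 ▸ m3.symm)) o1 o3 hc
      · exact occ_clo P hg m1 (mem _ a1 q1) (mem _ a2 q2) o1 o2 hc
    have him : (fun l : Io P N => l.1) '' {l : Io P N | ell F.S.h (cv F.S l.2.1) z = 0} =
        (({(s, 0), (s, 1), (s, 2), (s, 3)} : Finset (Bool × Fin 7)) : Set (Bool × Fin 7)) := by
      ext j
      have hj : j ∈ (({(s, 0), (s, 1), (s, 2), (s, 3)} : Finset (Bool × Fin 7)) :
          Set (Bool × Fin 7)) ↔ ∃ c < 4, j = (s, c) := by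
        rw [Finset.mem_coe]
        exact four_mem s j
      rw [hj]
      constructor
      · rintro ⟨l, a, rfl⟩
        obtain ⟨c, hc, e, -⟩ := oc l a
        exact ⟨c, hc, e⟩
      · rintro ⟨c, hc, rfl⟩
        obtain ⟨v, hv, e⟩ := all c hc
        exact ⟨⟨(s, c), v, hv⟩, (P.ell_iff hg hz e).2 (mf_pen hs hc), rfl⟩
    have hio : Set.InjOn (fun l : Io P N => l.1) {l : Io P N | ell F.S.h (cv F.S l.2.1) z = 0} :=
      fun l a l' b e => inj l l' a b e
    rw [← hio.ncard_image, him, Set.ncard_coe_finset]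
    cases s <;> decide
  · left
    rw [Set.ncard_eq_two]
    refine ⟨i, i', ne, Set.ext fun l => ⟨fun a => ?_, ?_⟩⟩
    · by_contra b
      simp only [Set.mem_insert_iff, Set.mem_singleton_iff, not_or] at b
      exact h3 ⟨l, a, b⟩
    · rintro (rfl | rfl)
      exacts [h1, h2]

theorem cont_dl (F : Fld L) {z : Cm 2} (hz : z ∈ F.S.B) : ContinuousAt (dl F.S.h z) z := by
  have h1 : Continuous fun w : Cm 2 => ell F.S.h (vec z) w := by
    simp only [F.ell_eq]
    fun_prop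
  have h2 : Continuous fun w : Cm 2 => -(Dn F.S.h w).re := by
    simp only [F.Dn_eq, nq]
    fun_prop
  unfold dl nr
  exact ((h1.norm.pow 2).continuousAt.div h2.continuousAt (neg_ne_zero.2 (Dn_neg hz).ne)).div_const _

/-- local finiteness -/
theorem Lev.fin (h : Lev P N) (j : Jx) {K : Set (Cm 2)} (hK : IsCompact K) (hKB : K ⊆ F.S.B) :
    {x | x ∈ Om F.S N (P.J j) ∧ ∃ z ∈ K, ell F.S.h (cv F.S x) z = 0}.Finite := by
  refine hK.induction_on (p := fun K' => {x | x ∈ Om F.S N (P.J j) ∧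
    ∃ z ∈ K', ell F.S.h (cv F.S x) z = 0}.Finite) (by simp) ?_ ?_ ?_
  · intro s t hst ht
    exact ht.subset fun x ⟨a, z, b, c⟩ => ⟨a, z, hst b, c⟩
  · intro s t hs ht
    refine (hs.union ht).subset fun x ⟨a, z, b, c⟩ => ?_
    rcases b with b | b
    exacts [Or.inl ⟨a, z, b, c⟩, Or.inr ⟨a, z, b, c⟩]
  · intro z hz
    obtain ⟨g, hg⟩ := h z (hKB hz)
    have h1 : ∀ᶠ w in 𝓝 z, dl F.S.h z w < 2 :=
      (cont_dl F (hKB hz)).eventually_lt continuousAt_const (by rw [dl_self (hKB hz)]; norm_num)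
    refine ⟨K ∩ {w | dl F.S.h z w < 2}, inter_mem_nhdsWithin K h1, Set.Subsingleton.finite ?_⟩
    rintro x ⟨a, w, b, c⟩ x' ⟨a', w', b', c'⟩
    exact hg.uniq P a a' (hKB b.1) (hKB b'.1) (le_of_lt b.2) (le_of_lt b'.2) c c'

end

end P300LA
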