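import Vale.Agent.P300LA.Defs
import Vale.Agent.P300LA.Shd
import Vale.Agent.P300LG.Deg

/-!
# P300LA: the vectors of the types and the model lines
-/

open scoped ComplexConjugate
open NumberField Module
open Vale.Agent.P288.BQ Vale.Agent.P288.X11 P300LT
open Vale.Agent.P300LX Vale.Agent.P300LG
open Vale.Agent.P272.K (Cm)

namespace P300LA

noncomputable section

variable {L : Type} [Field L] [NumberField L] [IsCMField L] (F : Fld L)

theorem Fld.c_intg : Intg F.S.c := by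
  intro k
  fin_cases k
  · exact ⟨-F.ρ, by simp [F.c0]⟩
  · exact ⟨1, by simp [F.c1]⟩
  · exact ⟨1, by simp [F.c2]⟩

theorem Fld.ι_sq : (F.ι : L) * (F.ι : L) = -1 := F.S.φ₀.injective (by simp [F.φι])

theorem Fld.conj_ι : IsCMField.complexConj L (F.ι : L) = -(F.ι : L) := F.S.φ₀.injective (by
  rw [IsCMField.complexEmbedding_complexConj, map_neg, F.φι, Complex.conj_I])

theorem Fld.rm_mulVec (x : Fin 3 → L) : F.rm.mulVec x = ![x 0, F.ι * x 2, -F.ι * x 1] := by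
  funext k
  fin_cases k <;> simp [Fld.rm, Matrix.mulVec, dotProduct, Fin.sum_univ_three]

theorem Fld.rm_rm (x : Fin 3 → L) : F.rm.mulVec (F.rm.mulVec x) = x := by
  rw [F.rm_mulVec, F.rm_mulVec]
  funext k
  fin_cases k
  · simp
  · simp only [Fin.mk_one, Matrix.cons_val_one, Matrix.cons_val_zero, Matrix.cons_val]
    linear_combination (-x 1) * F.ι_sq
  · simp only [Fin.reduceFinMk, Matrix.cons_val]
    linear_combination (-x 2) * F.ι_sq

theorem Fld.rm_mul : F.rm * F.rm = 1 := by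
  ext a b
  have := congrFun (F.rm_rm (Pi.single b 1)) a
  rw [Matrix.mulVec_mulVec, Matrix.mulVec_single_one] at this
  rw [Matrix.one_apply]
  simpa [Pi.single_apply] using this

/-- the reflection as an element of the linear group -/
def Fld.r : GL (Fin 3) L := ⟨F.rm, F.rm, F.rm_mul, F.rm_mul⟩

theorem Fld.r_val : F.r.1 = F.rm := rfl

theorem Fld.r_mul : F.r * F.r = 1 := Units.ext F.rm_mul

theorem Fld.r_inv : F.r⁻¹ = F.r := inv_eq_of_mul_eq_one_right F.r_mul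

theorem Fld.hL_three (x y : Fin 3 → L) : hL F.S x y =
    -F.ρ * x 0 * IsCMField.complexConj L (y 0) + x 1 * IsCMField.complexConj L (y 1) +
      x 2 * IsCMField.complexConj L (y 2) := by
  simp [hL, Fin.sum_univ_three, F.c0, F.c1, F.c2]

theorem Fld.hL_rm (x y : Fin 3 → L) : hL F.S (F.rm.mulVec x) (F.rm.mulVec y) = hL F.S x y := by
  rw [F.hL_three, F.hL_three, F.rm_mulVec, F.rm_mulVec]
  simp only [Matrix.cons_val_zero, Matrix.cons_val_one, Matrix.cons_val, map_mul, map_neg, F.conj_ι]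
  linear_combination (-(x 1 * IsCMField.complexConj L (y 1)) -
    x 2 * IsCMField.complexConj L (y 2)) * F.ι_sq

theorem Fld.r_U : F.r ∈ F.S.U :=
  (X6.mem_U_iff F.S F.r).2 ((X6.isU_iff_herm _ _).2 fun x y => F.hL_rm x y)

theorem Fld.rm_intg {x : Fin 3 → L} (hx : Intg x) : Intg (F.rm.mulVec x) := by
  rw [F.rm_mulVec]
  choose a ha using hx
  intro k
  fin_cases k
  · exact ⟨a 0, by simp [ha]⟩
  · exact ⟨F.ι * a 2, by simp [ha]⟩
  · exact ⟨-F.ι * a 1, by simp [ha]⟩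

theorem Fld.rm_Om {N : ℕ} {j x : Fin 3 → L} (hx : x ∈ Om F.S N j) :
    F.rm.mulVec x ∈ Om F.S N (F.rm.mulVec j) := by
  refine ⟨?_, by rw [F.hL_rm, F.hL_rm, hx.2]⟩
  obtain ⟨y, hy, rfl⟩ := cg_iff.1 hx.1
  exact cg_iff.2 ⟨_, F.rm_intg hy, by rw [Matrix.mulVec_add, Matrix.mulVec_smul]⟩

theorem Fld.mem_B (z : Cm 2) : z ∈ F.S.B ↔ nq z < √2 := by
  change F.S.h 0 + ∑ k : Fin 2, F.S.h k.succ * ‖z k‖ ^ 2 < 0 ↔ _
  rw [F.h_eq, nq]
  simp only [Fin.sum_univ_two, Matrix.cons_val_zero, Matrix.cons_val_succ, one_mul,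
    Matrix.cons_val_one, Matrix.cons_val_fin_one]
  constructor <;> intro h <;> linarith

theorem Fld.Dn_eq (z : Cm 2) : (Dn F.S.h z).re = nq z - √2 := by
  rw [Dn_re, F.h_eq, nq]
  simp only [Fin.sum_univ_two, Matrix.cons_val_zero, Matrix.cons_val_succ, one_mul,
    Matrix.cons_val_one, Matrix.cons_val_fin_one]
  ring

theorem vec_one (X : Cm 2) : vec X 1 = X 0 := rfl

theorem vec_two (X : Cm 2) : vec X 2 = X 1 := rfl

theorem Fld.ell_eq (v : Fin 3 → ℂ) (X : Cm 2) : ell F.S.h v X =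
    -(√2 : ℝ) * conj (v 0) + X 0 * conj (v 1) + X 1 * conj (v 2) := by
  rw [F.h_eq]
  simp [ell, herm, vec_one, vec_two, Fin.sum_univ_three]

theorem Fld.act_r (X : Cm 2) : act (F.S.mat F.r) X = rr X := by
  funext k
  fin_cases k <;>
    simp [act, aut, Setup.mat, Fld.r_val, Fld.rm, Matrix.mulVec, dotProduct, Fin.sum_univ_three,
      vec_one, vec_two, rr, F.φι]

theorem Fld.aut_r (X : Cm 2) : aut (F.S.mat F.r) X = 1 := by
  simp [aut, Setup.mat, Fld.r_val, Fld.rm, Matrix.mulVec, dotProduct, Fin.sum_univ_three, vec]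

theorem Fld.ell_rm (x : Fin 3 → L) (X : Cm 2) :
    ell F.S.h (cv F.S (F.rm.mulVec x)) X = ell F.S.h (cv F.S x) (rr X) := by
  rw [F.ell_eq, F.ell_eq, F.rm_mulVec]
  simp [cv, rr, F.φι]
  ring

variable {F} (P : Pen F)

theorem Pen.re_intg (k : Fin 7) : Intg (P.re k) := by
  intro a
  fin_cases k <;> fin_cases a
  exacts [⟨10 * F.ρ, by simp [Pen.re, map_ofNat]⟩, ⟨17, by simp [Pen.re, map_ofNat]⟩,
    ⟨16, by simp [Pen.re, map_ofNat]⟩,
    ⟨(10 * P.α + 50 * P.β) * F.ρ, by simp [Pen.re, map_ofNat]⟩,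
    ⟨17 * P.α + 85 * P.β, by simp [Pen.re, map_ofNat]⟩,
    ⟨16 * P.α - 75 * P.β, by simp [Pen.re, map_ofNat]⟩,
    ⟨60 * F.ρ, by simp [Pen.re, map_ofNat]⟩, ⟨102, by simp [Pen.re, map_ofNat]⟩,
    ⟨-59, by simp [Pen.re, map_ofNat]⟩,
    ⟨50 * F.ρ, by simp [Pen.re, map_ofNat]⟩, ⟨85, by simp [Pen.re, map_ofNat]⟩,
    ⟨-75, by simp [Pen.re, map_ofNat]⟩,
    ⟨10 * F.ρ, by simp [Pen.re, map_ofNat]⟩, ⟨-2, by simp [Pen.re, map_ofNat]⟩,
    ⟨-21, by simp [Pen.re, map_ofNat]⟩,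
    ⟨10 * F.ρ, by simp [Pen.re, map_ofNat]⟩, ⟨-20, by simp [Pen.re, map_ofNat]⟩,
    ⟨-5, by simp [Pen.re, map_ofNat]⟩,
    ⟨10 * F.ρ, by simp [Pen.re, map_ofNat]⟩, ⟨-12, by simp [Pen.re, map_ofNat]⟩,
    ⟨18, by simp [Pen.re, map_ofNat]⟩]

theorem Pen.J_intg (j : Jx) : Intg (P.J j) := by
  rcases j with _ | ⟨_ | _, k⟩
  · intro a
    fin_cases a
    exacts [⟨0, by simp [Pen.J]⟩, ⟨1, by simp [Pen.J]⟩, ⟨F.ι, by simp [Pen.J]⟩]
  · exact P.re_intg k
  · exact F.rm_intg (P.re_intg k)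

/-- the constant terms of the real lines -/
def Pen.kk : Fin 7 → ℝ := ![-20, -(20 * P.a + 100 * P.b), -120, -100, -20, -20, -20]

theorem Pen.kk_neg (k : Fin 7) : P.kk k < 0 := by
  have := P.apos
  have := P.bpos
  fin_cases k <;> simp [Pen.kk]
  linarith

theorem Pen.ell_re (k : Fin 7) (X : Cm 2) :
    ell F.S.h (cv F.S (P.re k)) X = (P.kk k : ℝ) * lb (bb P.y2 k) X := by
  have h2 : ((√2 : ℝ) : ℂ) * ((√2 : ℝ) : ℂ) = 2 := by
    rw [← Complex.ofReal_mul, Real.mul_self_sqrt (by norm_num)]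
    norm_num
  have h3 : ((20 * P.a + 100 * P.b : ℝ) : ℂ) ≠ 0 := by
    have := P.apos
    have := P.bpos
    exact Complex.ofReal_ne_zero.2 (by positivity)
  push_cast at h3
  rw [F.ell_eq]
  fin_cases k <;>
    simp [cv, Pen.re, Pen.kk, lb, bb, Pen.y2, map_ofNat, F.φρ, P.φα, P.φβ, Complex.conj_ofReal]
  · linear_combination (-10) * h2
  · have e := mul_div_cancel₀ (16 * (P.a : ℂ) - 75 * P.b) h3
    linear_combination (-(10 * (P.a : ℂ) + 50 * P.b)) * h2 - X 1 * e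
  · linear_combination (-60) * h2
  · linear_combination (-50) * h2
  · linear_combination (-10) * h2
  · linear_combination (-10) * h2
  · linear_combination (-10) * h2

theorem Pen.ell_J (j : Jx) : ∃ k : ℂ, k ≠ 0 ∧ ∀ X, ell F.S.h (cv F.S (P.J j)) X = k * mf P.y2 j X := by
  rcases j with _ | ⟨_ | _, k⟩
  · refine ⟨1, one_ne_zero, fun X => ?_⟩
    rw [F.ell_eq]
    simp [cv, Pen.J, mf, F.φι]
    ring
  · exact ⟨_, Complex.ofReal_ne_zero.2 (P.kk_neg k).ne, fun X => P.ell_re k X⟩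
  · refine ⟨_, Complex.ofReal_ne_zero.2 (P.kk_neg k).ne, fun X => ?_⟩
    rw [Pen.J, F.ell_rm, P.ell_re]
    rfl

theorem Pen.ell_J_iff (j : Jx) (X : Cm 2) :
    ell F.S.h (cv F.S (P.J j)) X = 0 ↔ mf P.y2 j X = 0 := by
  obtain ⟨k, hk, h⟩ := P.ell_J j
  rw [h, mul_eq_zero, or_iff_right hk]

theorem foot (y2 : ℝ) (j : Jx) : ∃ X, nq X ≤ 1385 / 1000 ∧ mf y2 j X = 0 := by
  rcases j with _ | ⟨s, k⟩
  · exact ⟨0, by simp [nq]; norm_num, by simp [mf]⟩
  · have : ∃ V, nq V ≤ 1385 / 1000 ∧ lb (bb y2 k) V = 0 := by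
      by_cases hk : k < 4
      · exact ⟨P0, nq_P0, by rw [bb_lt hk]; exact lb_P0 _⟩
      · fin_cases k
        all_goals first
          | exact absurd (by decide) hk
          | exact ⟨vx 1, nq_vx 1, (lb_vx y2 1).2⟩
          | exact ⟨vx 3, nq_vx 3, (lb_vx y2 3).2⟩
          | exact ⟨vx 0, nq_vx 0, (lb_vx y2 0).2⟩
    obtain ⟨V, h1, h2⟩ := this
    refine ⟨sd s V, by rw [nq_sd]; exact h1, ?_⟩
    change lb (bb y2 k) (sd s (sd s V)) = 0
    rw [sd_sd]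
    exact h2

theorem Pen.re_two : P.re 2 = P.re 0 + P.re 3 := by
  funext a
  fin_cases a <;> simp [Pen.re] <;> ring

theorem Pen.re_one : P.re 1 = (P.α : L) • P.re 0 + (P.β : L) • P.re 3 := by
  funext a
  simp only [Pi.add_apply, Pi.smul_apply, smul_eq_mul]
  fin_cases a <;> simp [Pen.re] <;> ring

theorem Pen.J_two (s : Bool) : P.J (some (s, 2)) = P.J (some (s, 0)) + P.J (some (s, 3)) := by
  cases s
  · exact P.re_two
  · simp only [Pen.J]
    rw [P.re_two, Matrix.mulVec_add]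

theorem Pen.J_one (s : Bool) :
    P.J (some (s, 1)) = (P.α : L) • P.J (some (s, 0)) + (P.β : L) • P.J (some (s, 3)) := by
  cases s
  · exact P.re_one
  · simp only [Pen.J]
    rw [P.re_one, Matrix.mulVec_add, Matrix.mulVec_smul, Matrix.mulVec_smul]

theorem Pen.rm_J (s : Bool) (k : Fin 7) : F.rm.mulVec (P.J (some (s, k))) = P.J (some (!s, k)) := by
  cases s
  · rfl
  · exact F.rm_rm _

theorem Pen.rm_d : F.rm.mulVec (P.J none) = -P.J none := by
  rw [F.rm_mulVec]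
  funext a
  fin_cases a <;> simp [Pen.J, F.ι_sq]

end

end P300LA
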